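import Mathlib
import Vale.Agent.P150.Factor

/-!
# An exponential potential for the field along the switching on of the couplings
-/

namespace Vale.Agent.P150.Beta1

open Finset Function Real

variable {ι : Type*} [Fintype ι] [DecidableEq ι]

/-- Independent signs with means `tanh z` have subgaussian exponential moments. -/
lemma sum_signProb_exp_le (z b : ι → ℝ) :
    ∑ s, signProb z s * exp (∑ k, spin (s k) * b k) ≤ exp (∑ k, (b k ^ 2 + z k ^ 2 / 2)) := by
  have e : ∀ s, signProb z s * exp (∑ k, spin (s k) * b k)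
      = ∏ k, (1 + spin (s k) * tanh (z k)) / 2 * exp (spin (s k) * b k) := fun s => by
    rw [signProb, exp_sum, prod_mul_distrib]
  simp only [e]
  rw [← Fintype.prod_sum fun k β => (1 + spin β * tanh (z k)) / 2 * exp (spin β * b k), exp_sum]
  refine prod_le_prod (fun k _ => sum_nonneg fun β _ => mul_nonneg ?_ (exp_pos _).le)
    fun k _ => ?_
  · have := abs_lt.1 (abs_tanh_lt_one (z k))
    cases β <;> simp [spin] <;> linarith
  have e2 : ∑ β, (1 + spin β * tanh (z k)) / 2 * exp (spin β * b k)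
      = cosh (b k) * (1 + tanh (z k) * tanh (b k)) := by
    simp only [exp_spin_mul, Fintype.sum_bool]
    simp only [spin, if_true, Bool.false_eq_true, if_false]
    ring
  rw [e2]
  have h1 : 1 + tanh (z k) * tanh (b k) ≤ exp ((z k ^ 2 + b k ^ 2) / 2) := by
    refine le_trans ?_ (add_one_le_exp _)
    have h2 := mul_le_mul (tanh_sub_self_le (z k)).2 (tanh_sub_self_le (b k)).2 (abs_nonneg _)
      (abs_nonneg _)
    have h3 := two_mul_le_add_sq |z k| |b k|
    have h4 := le_abs_self (tanh (z k) * tanh (b k))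
    rw [abs_mul] at h4
    rw [sq_abs, sq_abs] at h3
    linarith
  have h0 : 0 ≤ 1 + tanh (z k) * tanh (b k) := by
    have h2 := mul_le_mul (abs_tanh_lt_one (z k)).le (abs_tanh_lt_one (b k)).le (abs_nonneg _)
      zero_le_one
    have h4 := neg_abs_le (tanh (z k) * tanh (b k))
    rw [abs_mul] at h4
    linarith
  calc cosh (b k) * (1 + tanh (z k) * tanh (b k))
      ≤ exp (b k ^ 2 / 2) * exp ((z k ^ 2 + b k ^ 2) / 2) :=
        mul_le_mul (cosh_le_exp_half_sq _) h1 h0 (exp_pos _).le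
    _ = _ := by rw [← exp_add]; ring_nf

omit [DecidableEq ι] in
lemma sum_rowSum_sq_le {R : ι → ι → ℝ} {α : ℝ} (hα : 0 ≤ α)
    (hR : ∀ a : ι → ℝ, ∑ k, (∑ i, R k i * a i) ^ 2 ≤ α * ∑ i, a i ^ 2) (s : ι → Bool) :
    ∑ i, (∑ k, spin (s k) * R k i) ^ 2 ≤ α * Fintype.card ι := by
  set u : ι → ℝ := fun i => ∑ k, spin (s k) * R k i
  set U := ∑ i, u i ^ 2
  set n : ℝ := (Fintype.card ι : ℝ) with hn_def
  have hsp : ∀ k, spin (s k) ^ 2 = 1 := fun k => by cases s k <;> simp [spin]
  have e : U = ∑ k, spin (s k) * ∑ i, R k i * u i := by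
    simp only [U, sq, u, mul_sum, sum_mul]
    rw [sum_comm]
    refine sum_congr rfl fun k _ => sum_congr rfl fun i _ => ?_
    exact sum_congr rfl fun k' _ => by ring
  have h := sum_mul_sq_le_sq_mul_sq univ (fun k => spin (s k)) fun k => ∑ i, R k i * u i
  simp only [hsp, sum_const, card_univ, nsmul_eq_mul, mul_one, ← e] at h
  have h2 := h.trans (mul_le_mul_of_nonneg_left (hR u) (Nat.cast_nonneg _))
  rcases (show 0 ≤ U from sum_nonneg fun i _ => sq_nonneg _).eq_or_lt with h0 | h0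
  · show U ≤ α * n
    rw [← h0]
    positivity
  · refine le_of_mul_le_mul_right ?_ h0
    show U * U ≤ α * n * U
    linarith

/-- One step of the exponential potential of the squared displacement. -/
lemma exit_step {R : ι → ι → ℝ} {α ε θ : ℝ} (hα : 0 ≤ α) (hε : 0 ≤ ε) (hθ : 0 ≤ θ)
    (hR : ∀ a : ι → ℝ, ∑ k, (∑ i, R k i * a i) ^ 2 ≤ α * ∑ i, a i ^ 2) (d : ι → ℝ)
    (x : ι → Bool) :
    ∑ s, signProb (fun k => √ε * factorObs R k x) s
        * exp (θ * ∑ i, (d i + √ε * ∑ k, spin (s k) * R k i) ^ 2)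
      ≤ exp ((θ + ε * (4 * α * θ ^ 2)) * ∑ i, d i ^ 2
          + ε * ((θ + 1 / 2) * α) * Fintype.card ι) := by
  set n : ℝ := (Fintype.card ι : ℝ) with hn_def
  set D := ∑ i, d i ^ 2
  set z : ι → ℝ := fun k => √ε * factorObs R k x
  set b : ι → ℝ := fun k => 2 * θ * √ε * ∑ i, R k i * d i
  have hexp : ∀ s : ι → Bool, θ * ∑ i, (d i + √ε * ∑ k, spin (s k) * R k i) ^ 2
      ≤ (θ * D + θ * ε * (α * n)) + ∑ k, spin (s k) * b k := by
    intro s
    have e : θ * ∑ i, (d i + √ε * ∑ k, spin (s k) * R k i) ^ 2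
        = θ * D + ∑ k, spin (s k) * b k + θ * ε * ∑ i, (∑ k, spin (s k) * R k i) ^ 2 := by
      simp only [add_sq, sum_add_distrib, mul_add, mul_pow, sq_sqrt hε, ← mul_sum]
      have e1 : θ * ∑ i, 2 * d i * (√ε * ∑ k, spin (s k) * R k i) = ∑ k, spin (s k) * b k := by
        simp only [b, mul_sum]
        rw [sum_comm]
        exact sum_congr rfl fun k _ => sum_congr rfl fun i _ => by ring
      rw [e1]
      ring
    have := mul_le_mul_of_nonneg_left (sum_rowSum_sq_le hα hR s) (mul_nonneg hθ hε)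
    rw [e]
    linarith
  have hb : ∑ k, b k ^ 2 ≤ ε * (4 * α * θ ^ 2) * D := by
    simp only [b, mul_pow, sq_sqrt hε, ← mul_sum]
    have := mul_le_mul_of_nonneg_left (hR d) (show 0 ≤ 2 ^ 2 * θ ^ 2 * ε by positivity)
    linarith
  have hz : ∑ k, z k ^ 2 ≤ ε * (α * n) := by
    simp only [z, mul_pow, sq_sqrt hε, ← mul_sum]
    refine mul_le_mul_of_nonneg_left ?_ hε
    have h := hR fun i => spin (x i)
    have e : ∀ i, spin (x i) ^ 2 = 1 := fun i => by cases x i <;> simp [spin]
    simp only [e, sum_const, card_univ, nsmul_eq_mul, mul_one] at h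
    exact h
  calc ∑ s, signProb z s * exp (θ * ∑ i, (d i + √ε * ∑ k, spin (s k) * R k i) ^ 2)
      ≤ ∑ s, signProb z s * (exp (θ * D + θ * ε * (α * n)) * exp (∑ k, spin (s k) * b k)) :=
        sum_le_sum fun s _ => by
          rw [← exp_add]
          exact mul_le_mul_of_nonneg_left (exp_le_exp.2 (hexp s)) (signProb_pos _ _).le
    _ = exp (θ * D + θ * ε * (α * n)) * ∑ s, signProb z s * exp (∑ k, spin (s k) * b k) := by
        simp only [mul_left_comm (signProb z _), ← mul_sum]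
    _ ≤ exp (θ * D + θ * ε * (α * n)) * exp (∑ k, (b k ^ 2 + z k ^ 2 / 2)) :=
        mul_le_mul_of_nonneg_left (sum_signProb_exp_le z b) (exp_pos _).le
    _ ≤ _ := by
        rw [← exp_add, exp_le_exp, sum_add_distrib, ← sum_div]
        linarith

end Vale.Agent.P150.Beta1
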