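import Mathlib
import Vale.Agent.P150.Main

/-!
# All small principal blocks of the couplings have small quadratic forms
-/

namespace Vale.Agent.P150.Beta1

open MeasureTheory ProbabilityTheory Finset Filter Real
open scoped ENNReal Topology

/-- Vectors carried by at most `ε n` sites see a quadratic form at most `η`. -/
def SmallBlocks {n : ℕ} (η ε : ℝ) (J : Fin n → Fin n → ℝ) : Prop :=
  ∀ S : Finset (Fin n), (S.card : ℝ) ≤ ε * n → ∀ a : Fin n → ℝ, (∀ i, i ∉ S → a i = 0) →
    ∑ i, ∑ j, J i j * a i * a j ≤ η * ∑ i, a i ^ 2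

/-- Orthogonal rows turning the entries above the diagonal into symmetrised entries. -/
noncomputable def rotRows (n : ℕ) (p k : Fin n × Fin n) : ℝ :=
  (if k = p then (if p.1 < p.2 then 1 / √2 else if p.2 < p.1 then -(1 / √2) else 1) else 0)
    + if k = p.swap then (if p.1 = p.2 then 0 else 1 / √2) else 0

lemma rotRows_orth (n : ℕ) (p q : Fin n × Fin n) :
    ∑ k, rotRows n p k * rotRows n q k = if p = q then 1 else 0 := by
  have h2 : (1 / √2) * (1 / √2) + (1 / √2) * (1 / √2) = (1 : ℝ) := by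
    rw [div_mul_div_comm, Real.mul_self_sqrt (by norm_num)]
    norm_num
  let u : Fin n × Fin n → ℝ := fun p =>
    if p.1 < p.2 then 1 / √2 else if p.2 < p.1 then -(1 / √2) else 1
  let v : Fin n × Fin n → ℝ := fun p => if p.1 = p.2 then 0 else 1 / √2
  have hd : u p * u p + v p * v p = 1 := by
    rcases lt_trichotomy p.1 p.2 with h | h | h
    · simp only [u, v, if_pos h, if_neg h.ne]; exact h2
    · simp [u, v, h]
    · simp only [u, v, if_neg h.not_gt, if_pos h, if_neg h.ne', neg_mul_neg]; exact h2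
  have hs : u p * v p.swap + v p * u p.swap = if p = p.swap then u p * v p + v p * u p else 0 := by
    rcases lt_trichotomy p.1 p.2 with h | h | h
    · simp [u, v, h, h.ne, h.ne', h.not_gt, Prod.ext_iff]
    · have : p = p.swap := Prod.ext h h.symm
      rw [← this, if_pos rfl]
    · simp [u, v, h, h.ne, h.ne', h.not_gt, Prod.ext_iff]
  have e1 : p = q.swap ↔ q = p.swap := ⟨fun h => by simp [h], fun h => by simp [h]⟩
  have e2 : p.swap = q ↔ q = p.swap := eq_comm
  have e3 : p.swap = q.swap ↔ p = q := Prod.swap_injective.eq_iff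
  have hrow : ∀ p k : Fin n × Fin n, rotRows n p k
      = u p * (if k = p then 1 else 0) + v p * (if k = p.swap then 1 else 0) := fun p k => by
    simp only [mul_ite, mul_one, mul_zero]
    rfl
  calc ∑ k, rotRows n p k * rotRows n q k
      = u p * rotRows n q p + v p * rotRows n q p.swap := by
        rw [sum_congr rfl fun k _ => by rw [hrow p k, add_mul, mul_assoc, mul_assoc],
          sum_add_distrib, ← mul_sum, ← mul_sum]
        simp only [ite_mul, one_mul, zero_mul, sum_ite_eq', mem_univ, if_true]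
    _ = (if p = q then u p * u q + v p * v q else 0)
        + if q = p.swap then u p * v q + v p * u q else 0 := by
        simp only [hrow, e1, e2, e3]
        split_ifs <;> ring
    _ = _ := by
        rcases eq_or_ne p q with rfl | hpq
        · rw [if_pos rfl, if_pos rfl, hd, add_eq_left]
          split_ifs with h
          · have : v p = 0 := if_pos (congrArg Prod.fst h)
            simp [this]
          · rfl
        · rw [if_neg hpq, if_neg hpq, zero_add]
          split_ifs with h
          · subst h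
            rw [hs, if_neg hpq]
          · rfl

lemma skCoupling_rot (β : ℝ) {n : ℕ} (g : Fin n × Fin n → ℝ) :
    skCoupling β (symmArray (rowMap (rotRows n) g)) = skCoupling β g := by
  have h : ∀ i j, i < j → symmArray (rowMap (rotRows n) g) (i, j) = g (i, j) := fun i j hij => by
    have h2 : √2 * √2 = 2 := Real.mul_self_sqrt (by norm_num)
    simp [symmArray, rowMap, rotRows, add_mul, sum_add_distrib, hij, hij.not_gt, hij.ne, hij.ne']
    field_simp
    linear_combination (-(g (i, j))) * h2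
  funext i j
  simp only [skCoupling]
  split_ifs with h1 h2
  · rw [h i j h1]
  · rw [h j i h2]
  · rfl

/-- One block, in terms of the unsymmetrised matrix. -/
lemma block_le {β η₀ : ℝ} (hβ : 0 ≤ β) (hβ1 : β ≤ 1) (hη₀ : 0 ≤ η₀) {n m : ℕ} (hn : 0 < n)
    (A : Fin n × Fin n → ℝ) (e : Fin m → Fin n) (he : Function.Injective e)
    (hd : ∀ i, |A (i, i)| ≤ η₀ * √n) {L : ℝ} (hL : L = 3 * (η₀ * √n))
    (hA : (fun q : Fin m × Fin m => A (e q.1, e q.2)) ∉ badSet (η₀ * √n) L (0 : Fin m → ℝ))
    (b : Fin m → ℝ) :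
    ∑ p, ∑ q, skCoupling β (symmArray A) (e p) (e q) * b p * b q ≤ 5 * η₀ * ∑ p, b p ^ 2 := by
  simp only [badSet, Set.mem_ofPred_eq, not_exists, not_lt, Pi.zero_apply, zero_mul,
    sum_const_zero, ne_eq, OfNat.ofNat_ne_zero, not_false_eq_true, zero_pow, mul_zero,
    add_zero] at hA
  have hQ := hA b
  simp only [quadForm] at hQ
  have hsn : 0 < √(n : ℝ) := Real.sqrt_pos.2 (Nat.cast_pos.2 hn)
  have h22 : √2 * √2 = 2 := Real.mul_self_sqrt (by norm_num)
  have h2 : 0 < √2 := Real.sqrt_pos.2 two_pos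
  have e1 : ∀ p q, skCoupling β (symmArray A) (e p) (e q) * b p * b q
      = β / √n * ((A (e p, e q) * b p * b q + A (e q, e p) * b q * b p) / √2)
        - if p = q then β / √n * (√2 * (A (e p, e p) * b p ^ 2)) else 0 := by
    intro p q
    rcases eq_or_ne p q with rfl | hpq
    · rw [skCoupling_self, if_pos rfl]
      field_simp
      linear_combination (β * A (e p, e p) * b p ^ 2) * h22
    · rw [skCoupling_symmArray β A (he.ne hpq), if_neg hpq]
      ring
  have hdg : -(√2 * ∑ p, A (e p, e p) * b p ^ 2) ≤ 2 * (η₀ * √n) * ∑ p, b p ^ 2 := by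
    rw [← mul_neg, ← sum_neg_distrib, mul_sum, mul_sum]
    refine sum_le_sum fun p _ => ?_
    have h1 : -A (e p, e p) ≤ η₀ * √n := (neg_le_abs _).trans (hd _)
    have h2' : √2 ≤ 2 := by nlinarith
    calc √2 * -(A (e p, e p) * b p ^ 2) = √2 * b p ^ 2 * -A (e p, e p) := by ring
      _ ≤ √2 * b p ^ 2 * (η₀ * √n) := mul_le_mul_of_nonneg_left h1 (by positivity)
      _ ≤ 2 * b p ^ 2 * (η₀ * √n) := by gcongr
      _ = _ := by ring
  simp only [e1, sum_sub_distrib, sum_ite_eq, mem_univ, if_true, ← mul_sum, ← sum_div,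
    sum_add_distrib]
  rw [sum_comm (f := fun p q => A (e q, e p) * b q * b p), ← mul_sub]
  set Q := ∑ p, ∑ q, A (e p, e q) * b p * b q
  have eQ : (Q + Q) / √2 = √2 * Q := by
    field_simp
    linear_combination (-Q) * h22
  rw [eQ]
  calc β / √n * (√2 * Q - √2 * ∑ p, A (e p, e p) * b p ^ 2)
      ≤ β / √n * (5 * (η₀ * √n) * ∑ p, b p ^ 2) :=
        mul_le_mul_of_nonneg_left (by rw [hL] at hQ; linarith) (div_nonneg hβ hsn.le)
    _ = β * (5 * η₀ * ∑ p, b p ^ 2) := by field_simp
    _ ≤ _ := mul_le_of_le_one_left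
        (mul_nonneg (by linarith) (sum_nonneg fun p _ => sq_nonneg _)) hβ1

/-- Few subsets are small. -/
lemma card_small_subsets {n : ℕ} {t ε : ℝ} (ht : 0 < t) (hε : ε ≤ t ^ 2) :
    ((univ.filter fun S : Finset (Fin n) => (S.card : ℝ) ≤ ε * n).card : ℝ) ≤ exp (2 * t * n) := by
  set F := univ.filter fun S : Finset (Fin n) => (S.card : ℝ) ≤ ε * n
  have hsum : ∑ S : Finset (Fin n), t ^ S.card = (t + 1) ^ n := by
    have := sum_pow_mul_eq_add_pow t 1 (univ : Finset (Fin n))
    simpa using this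
  have hlow : ∀ S ∈ F, exp (-(t * n)) ≤ t ^ S.card := by
    intro S hS
    have hk : (S.card : ℝ) ≤ ε * n := (mem_filter.1 hS).2
    have h1 : exp (-(1 / t)) ≤ t := by
      rw [exp_neg, inv_le_comm₀ (exp_pos _) ht, ← one_div]
      linarith [add_one_le_exp (1 / t)]
    refine le_trans ?_ (pow_le_pow_left₀ (exp_pos _).le h1 _)
    rw [← exp_nat_mul, exp_le_exp]
    have h3 : (S.card : ℝ) * (1 / t) ≤ t * n := by
      rw [mul_one_div, div_le_iff₀ ht]
      have := mul_le_mul_of_nonneg_right hε (Nat.cast_nonneg n : (0:ℝ) ≤ n)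
      linarith
    linarith
  have h := (sum_le_sum hlow).trans
    (sum_le_sum_of_subset_of_nonneg (subset_univ F) fun S _ _ => (pow_nonneg ht.le _))
  rw [hsum, sum_const, nsmul_eq_mul] at h
  have h2 : (t + 1) ^ n ≤ exp (t * n) := by
    rw [mul_comm, exp_nat_mul]
    exact pow_le_pow_left₀ (by linarith) (add_one_le_exp t) n
  have h3 := mul_le_mul_of_nonneg_right (h.trans h2) (exp_pos (t * n)).le
  rw [mul_assoc, ← exp_add, ← exp_add, neg_add_cancel, exp_zero, mul_one] at h3
  exact h3.trans (le_of_eq (by ring_nf))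

/-- The failure event for the blocks has exponentially small probability. -/
lemma gauss_smallBlocks_compl {β η₀ t : ℝ} (hβ : 0 ≤ β) (hβ1 : β ≤ 1) (hη : 0 < η₀)
    (hη1 : η₀ ≤ 1) (ht : t = η₀ ^ 2 / 64) {n : ℕ} (hn : 0 < n) :
    gauss (Fin n × Fin n) {g | ¬ SmallBlocks (5 * η₀) (t ^ 2) (skCoupling β g)}
      ≤ ENNReal.ofReal (5 * n * exp (-(η₀ ^ 2 / 16)) ^ n) := by
  set r := η₀ * √n with hr
  set q := exp (-(η₀ ^ 2 / 16)) ^ n with hq
  have hqe : q = exp (-(η₀ ^ 2 / 16 * n)) := by
    rw [hq, ← exp_nat_mul]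
    congr 1
    ring
  have ht0 : 0 < t := by rw [ht]; positivity
  have ht1 : t ≤ 1 := by
    rw [ht]
    linarith [pow_le_one₀ hη.le hη1 (n := 2)]
  have hn' : (0:ℝ) ≤ n := Nat.cast_nonneg n
  have hsq : r ^ 2 = η₀ ^ 2 * n := by rw [hr, mul_pow, Real.sq_sqrt hn']
  set F := univ.filter fun S : Finset (Fin n) => (S.card : ℝ) ≤ t ^ 2 * n
  let proj : (S : Finset (Fin n)) → (Fin n × Fin n → ℝ) → Fin S.card × Fin S.card → ℝ :=
    fun S A k => A (S.orderEmbOfFin rfl k.1, S.orderEmbOfFin rfl k.2)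
  set G : Set (Fin n × Fin n → ℝ) := (⋃ i : Fin n, {A | r < |A (i, i)|})
    ∪ ⋃ S ∈ F, proj S ⁻¹' badSet r (3 * r) (0 : Fin S.card → ℝ) with hG
  have hproj : ∀ S, Measurable (proj S) := fun S =>
    measurable_pi_lambda _ fun k => measurable_pi_apply _
  have hGm : MeasurableSet G := by
    refine (MeasurableSet.iUnion fun i => measurableSet_lt measurable_const (by fun_prop)).union ?_
    exact MeasurableSet.biUnion F.countable_toSet fun S _ =>
      hproj S (measurableSet_badSet _ _ _)
  have hsub : {g | ¬ SmallBlocks (5 * η₀) (t ^ 2) (skCoupling β g)}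
      ⊆ rowMap (rotRows n) ⁻¹' G := by
    intro g hg
    by_contra h
    simp only [G, Set.mem_preimage, Set.mem_union, Set.mem_iUnion, not_or, not_exists,
      Set.mem_ofPred_eq, not_lt] at h
    refine hg fun S hS a ha => ?_
    set e := S.orderEmbOfFin (rfl : S.card = S.card) with he
    have key := block_le hβ hβ1 hη.le hn (rowMap (rotRows n) g) e e.injective h.1
      (L := 3 * r) rfl (h.2 S (mem_filter.2 ⟨mem_univ _, hS⟩)) fun p => a (e p)
    rw [skCoupling_rot] at key
    have hS' : ∀ φ : Fin n → ℝ, (∀ i, i ∉ S → φ i = 0) → ∑ p, φ (e p) = ∑ i, φ i := by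
      intro φ hφ
      rw [← sum_subset (subset_univ S) fun i _ hi => hφ i hi]
      conv_rhs => rw [← S.image_orderEmbOfFin_univ rfl]
      rw [sum_image fun p _ p' _ h => e.injective h]
    refine le_trans (le_of_eq ?_) (key.trans (le_of_eq ?_))
    · symm
      rw [← hS' _ fun i hi => by simp [ha i hi]]
      exact sum_congr rfl fun p _ =>
        hS' (fun j => skCoupling β g (e p) j * a (e p) * a j) fun i hi => by simp [ha i hi]
    · rw [hS' (fun i => a i ^ 2) fun i hi => by simp [ha i hi]]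
  have hdiag : ∀ i : Fin n, gauss (Fin n × Fin n) {A | r < |A (i, i)|}
      ≤ ENNReal.ofReal (2 * q) := fun i => by
    refine (gauss_coord_tail (i, i) (by positivity)).trans (ENNReal.ofReal_le_ofReal ?_)
    rw [hqe]
    refine mul_le_mul_of_nonneg_left (exp_le_exp.2 ?_) zero_le_two
    rw [neg_div, hsq]
    have : 0 ≤ η₀ ^ 2 * n := by positivity
    linarith
  have hstep : ∀ S ∈ F, gauss (Fin n × Fin n) (proj S ⁻¹' badSet r (3 * r) (0 : Fin S.card → ℝ))
      ≤ ENNReal.ofReal (n * (3 * exp (-(η₀ ^ 2 / 8 * n)))) := by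
    intro S hS
    have hk : (S.card : ℝ) ≤ t ^ 2 * n := (mem_filter.1 hS).2
    have hmap : (gauss (Fin n × Fin n)).map (proj S) = gauss (Fin S.card × Fin S.card) :=
      gauss_map_comp (fun k : Fin S.card × Fin S.card =>
        (S.orderEmbOfFin rfl k.1, S.orderEmbOfFin rfl k.2)) fun k k' h => by
          simpa [Prod.ext_iff] using h
    rw [← Measure.map_apply (hproj S) (measurableSet_badSet _ _ _), hmap]
    refine (gauss_edge (r := r) (s := r) (a := 1 / 4) (C := √2) (by positivity) (by positivity)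
      (by norm_num) (Real.one_le_sqrt.2 one_le_two) (by norm_num) (by linarith) S.card le_rfl
      (0 : Fin S.card → ℝ) (by simp)).trans ?_
    rw [← ENNReal.ofReal_natCast, ← ENNReal.ofReal_mul (Nat.cast_nonneg _)]
    refine ENNReal.ofReal_le_ofReal (mul_le_mul ?_ ?_ (by rw [stepFail]; positivity) hn')
    · exact_mod_cast (card_le_univ S).trans_eq (Fintype.card_fin n)
    rw [stepFail]
    have h1 : exp (-(1 / 4) * r ^ 2) * √2 ^ S.card ≤ exp (-(η₀ ^ 2 / 8 * n)) := by
      have h2 : √2 ≤ exp (1 / 2) := by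
        rw [exp_half]
        exact Real.sqrt_le_sqrt (by linarith [add_one_le_exp (1:ℝ)])
      calc exp (-(1 / 4) * r ^ 2) * √2 ^ S.card
          ≤ exp (-(1 / 4) * r ^ 2) * exp (1 / 2) ^ S.card :=
            mul_le_mul_of_nonneg_left (pow_le_pow_left₀ (Real.sqrt_nonneg _) h2 _) (exp_pos _).le
        _ ≤ _ := by
            rw [← exp_nat_mul, ← exp_add, exp_le_exp, hsq]
            have h3 : t ^ 2 * n ≤ t * n :=
              mul_le_mul_of_nonneg_right (by rw [sq]; exact mul_le_of_le_one_left ht0.le ht1) hn'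
            have h4 : t * n = η₀ ^ 2 * n / 64 := by rw [ht]; ring
            have : 0 ≤ η₀ ^ 2 * n := by positivity
            linarith
    have h5 : exp (-r ^ 2 / 8) = exp (-(η₀ ^ 2 / 8 * n)) := by
      rw [hsq]
      congr 1
      ring
    rw [h5]
    linarith
  refine (measure_mono hsub).trans ?_
  rw [← Measure.map_apply (measurable_rowMap _) hGm, gauss_map_rowMap _ (rotRows_orth n)]
  refine (measure_union_le _ _).trans ((add_le_add
    ((measure_iUnion_fintype_le _ _).trans (sum_le_sum fun i _ => hdiag i))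
    ((measure_biUnion_finset_le _ _).trans (sum_le_sum hstep))).trans ?_)
  rw [sum_const, sum_const, card_univ, Fintype.card_fin, nsmul_eq_mul, nsmul_eq_mul,
    ← ENNReal.ofReal_natCast, ← ENNReal.ofReal_natCast, ← ENNReal.ofReal_mul (Nat.cast_nonneg _),
    ← ENNReal.ofReal_mul (Nat.cast_nonneg _),
    ← ENNReal.ofReal_add (by positivity) (by positivity)]
  refine ENNReal.ofReal_le_ofReal ?_
  have hc : (F.card : ℝ) * exp (-(η₀ ^ 2 / 8 * n)) ≤ q := by
    refine (mul_le_mul_of_nonneg_right (card_small_subsets ht0 le_rfl) (exp_pos _).le).trans ?_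
    rw [hqe, ← exp_add, exp_le_exp]
    have h4 : t * n = η₀ ^ 2 * n / 64 := by rw [ht]; ring
    have : 0 ≤ η₀ ^ 2 * n := by positivity
    linarith
  have := mul_le_mul_of_nonneg_left hc (mul_nonneg zero_le_three hn')
  linarith

/-- With probability tending to one all small blocks are uniformly small. -/
theorem tendsto_smallBlocks {β η : ℝ} (hβ : 0 ≤ β) (hβ1 : β ≤ 1) (hη : 0 < η) (hη1 : η ≤ 1) :
    ∃ ε > 0, Tendsto (fun n : ℕ => Measure.pi (fun _ : Fin n × Fin n => gaussianReal 0 1)
      {g | ¬ SmallBlocks η ε (skCoupling β g)}) atTop (𝓝 0) := by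
  set η₀ := η / 5 with hη₀
  have hη0 : 0 < η₀ := by positivity
  refine ⟨(η₀ ^ 2 / 64) ^ 2, by positivity, ?_⟩
  have h1 : Tendsto (fun n : ℕ => ENNReal.ofReal (5 * n * exp (-(η₀ ^ 2 / 16)) ^ n)) atTop
      (𝓝 0) := by
    have h := ENNReal.tendsto_ofReal ((tendsto_pow_const_mul_const_pow_of_lt_one 1 (exp_pos _).le
      (exp_lt_one_iff.2 (by have := pow_pos hη0 2; linarith) :
        exp (-(η₀ ^ 2 / 16)) < 1)).const_mul (5:ℝ))
    simpa [mul_assoc] using h
  refine tendsto_of_tendsto_of_tendsto_of_le_of_le' tendsto_const_nhds h1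
    (Eventually.of_forall fun n => bot_le) ?_
  filter_upwards [eventually_gt_atTop 0] with n hn
  have h := gauss_smallBlocks_compl hβ hβ1 hη0 (by rw [hη₀]; linarith) rfl hn
  rwa [show 5 * η₀ = η by rw [hη₀]; ring] at h

end Vale.Agent.P150.Beta1
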