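import Mathlib
import Vale.Agent.P150.Factor
import Vale.Agent.P150.Beta1.LargeField.Blocks

/-!
# Spectral gap at external fields that are large off a small set of sites
-/

namespace Vale.Agent.P150.Beta1

open Finset Function Real

variable {n : ℕ}

/-- The deterministic properties of the couplings that are used at large fields. -/
def LargeFieldCoupling (ε : ℝ) (J : Fin n → Fin n → ℝ) : Prop :=
  (∀ i j, J i j = J j i) ∧ (∀ i, J i i = 0) ∧ (∀ i j, |J i j| ≤ 1 / 10000) ∧
  (∀ i, ∑ j, J i j ^ 2 ≤ 1001 / 1000) ∧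
  (∀ a : Fin n → ℝ, |∑ i, ∑ j, J i j * a i * a j| ≤ 3 * ∑ i, a i ^ 2) ∧
  SmallBlocks (1 / 16) ε J

lemma LargeFieldCoupling.scale {ε t : ℝ} {J : Fin n → Fin n → ℝ} (hJ : LargeFieldCoupling ε J)
    (ht : 0 ≤ t) (ht1 : t ≤ 1) : LargeFieldCoupling ε (fun i j => t * J i j) := by
  obtain ⟨hsymm, hdiag, hsmall, hrow, hop, hblock⟩ := hJ
  have e : ∀ a : Fin n → ℝ, ∑ i, ∑ j, t * J i j * a i * a j
      = t * ∑ i, ∑ j, J i j * a i * a j := fun a => by simp only [mul_assoc, mul_sum]
  refine ⟨fun i j => show t * J i j = t * J j i by rw [hsymm],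
    fun i => show t * J i i = 0 by rw [hdiag, mul_zero], fun i j => ?_, fun i => ?_,
    fun a => ?_, fun S hS a ha => ?_⟩
  · rw [abs_mul, abs_of_nonneg ht]
    exact (mul_le_of_le_one_left (abs_nonneg _) ht1).trans (hsmall i j)
  · refine (sum_le_sum fun j _ => ?_).trans (hrow i)
    rw [mul_pow]
    exact mul_le_of_le_one_left (sq_nonneg _) (pow_le_one₀ ht ht1)
  · rw [e, abs_mul, abs_of_nonneg ht]
    exact (mul_le_of_le_one_left (abs_nonneg _) ht1).trans (hop a)
  · rw [e]
    exact (mul_le_mul_of_nonneg_left (hblock S hS a ha) ht).trans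
      (mul_le_of_le_one_left (by positivity) ht1)

/-- Polarisation of a two-sided bound on the quadratic form. -/
lemma two_mul_bilin_le {J : Fin n → Fin n → ℝ} {Λ : ℝ} (hsymm : ∀ i j, J i j = J j i)
    (hop : ∀ a : Fin n → ℝ, |∑ i, ∑ j, J i j * a i * a j| ≤ Λ * ∑ i, a i ^ 2)
    (u v : Fin n → ℝ) :
    2 * ∑ i, ∑ j, J i j * u i * v j ≤ Λ * (∑ i, u i ^ 2 + ∑ i, v i ^ 2) := by
  have h1 := (abs_le.1 (hop fun i => u i + v i)).2
  have h2 := (abs_le.1 (hop fun i => u i - v i)).1
  simp only [mul_add, add_mul, mul_sub, sub_mul, sum_add_distrib, sum_sub_distrib] at h1 h2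
  have e : ∑ i, ∑ j, J i j * v i * u j = ∑ i, ∑ j, J i j * u i * v j := by
    rw [sum_comm]
    exact sum_congr rfl fun i _ => sum_congr rfl fun j _ => by rw [hsymm j i]; ring
  rw [e] at h1 h2
  simp only [add_sq, sub_sq, sum_add_distrib, sum_sub_distrib, mul_add, mul_sub] at h1 h2
  rw [mul_add]
  linarith

lemma sum_act_sq_le {J : Fin n → Fin n → ℝ} (hsymm : ∀ i j, J i j = J j i)
    (hop : ∀ a : Fin n → ℝ, |∑ i, ∑ j, J i j * a i * a j| ≤ 3 * ∑ i, a i ^ 2)
    (x : Fin n → Bool) : ∑ i, (∑ j, J i j * spin (x j)) ^ 2 ≤ 9 * n := by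
  set u : Fin n → ℝ := fun i => ∑ j, J i j * spin (x j)
  have h := two_mul_bilin_le hsymm hop u fun j => 3 * spin (x j)
  have e1 : ∑ i, ∑ j, J i j * u i * (3 * spin (x j)) = 3 * ∑ i, u i ^ 2 := by
    rw [mul_sum]
    refine sum_congr rfl fun i _ => ?_
    have e : u i ^ 2 = ∑ j, u i * (J i j * spin (x j)) := by rw [← mul_sum, sq]
    rw [e, mul_sum]
    exact sum_congr rfl fun j _ => by ring
  have e2 : ∑ i, (3 * spin (x i)) ^ 2 = 9 * (n : ℝ) := by
    have : ∀ i, (3 * spin (x i)) ^ 2 = 9 := fun i => by cases x i <;> norm_num [spin]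
    simp only [this, sum_const, card_univ, Fintype.card_fin, nsmul_eq_mul]
    ring
  rw [e1, e2] at h
  linarith

/-- Near a field that is large off `ε n` sites, few local fields are small. -/
lemma card_localField_small {A ε ε' R : ℝ} {J : Fin n → Fin n → ℝ}
    (hsymm : ∀ i j, J i j = J j i)
    (hop : ∀ a : Fin n → ℝ, |∑ i, ∑ j, J i j * a i * a j| ≤ 3 * ∑ i, a i ^ 2) (hA : 30 ≤ A)
    (hε : ε + 8 * (R + 9) / A ^ 2 ≤ ε') {y h : Fin n → ℝ}
    (hy : ((univ.filter fun i => |y i| < A).card : ℝ) ≤ ε * n)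
    (hh : ∑ i, (h i - y i) ^ 2 ≤ R * n) (x : Fin n → Bool) :
    ((univ.filter fun i => |localField J h i x| < 15).card : ℝ) ≤ ε' * n := by
  set T := univ.filter fun i => |y i| < A
  set S := univ.filter fun i => |localField J h i x| < 15
  set w : Fin n → ℝ := fun i => (h i - y i) ^ 2 + (∑ j, J i j * spin (x j)) ^ 2
  have hA2 : 0 < A ^ 2 := by positivity
  have hpt : ∀ i ∈ S, (1 : ℝ) ≤ (if i ∈ T then 1 else 0) + 8 / A ^ 2 * w i := by
    intro i hi
    have hw : 0 ≤ w i := by positivity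
    have hpos : 0 ≤ 8 / A ^ 2 * w i := by positivity
    split_ifs with hiT
    · linarith
    · have hyi : A ≤ |y i| := not_lt.1 fun h => hiT (mem_filter.2 ⟨mem_univ _, h⟩)
      have hl : |localField J h i x| < 15 := (mem_filter.1 hi).2
      have e : y i = localField J h i x - (h i - y i) - ∑ j, J i j * spin (x j) := by
        rw [localField]; ring
      have h3 : |y i| ≤ |localField J h i x| + |h i - y i| + |∑ j, J i j * spin (x j)| := by
        conv_lhs => rw [e]
        exact (abs_sub _ _).trans (add_le_add (abs_sub _ _) le_rfl)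
      have h5 := pow_le_pow_left₀ (show 0 ≤ A / 2 by linarith)
        (show A / 2 ≤ |h i - y i| + |∑ j, J i j * spin (x j)| by linarith) 2
      have h6 := h5.trans add_sq_le
      rw [sq_abs, sq_abs] at h6
      rw [zero_add, div_mul_eq_mul_div, one_le_div hA2]
      show A ^ 2 ≤ 8 * ((h i - y i) ^ 2 + (∑ j, J i j * spin (x j)) ^ 2)
      linarith
  have h1 := sum_le_sum hpt
  rw [sum_const, nsmul_eq_mul, mul_one, sum_add_distrib, ← mul_sum] at h1
  have h2 : (∑ i ∈ S, if i ∈ T then (1:ℝ) else 0) ≤ T.card := by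
    rw [sum_boole]
    exact_mod_cast card_le_card fun i hi => (mem_filter.1 hi).2
  have h3 : ∑ i ∈ S, w i ≤ (R + 9) * n := by
    refine (sum_le_sum_of_subset_of_nonneg (subset_univ S) fun i _ _ => by positivity).trans ?_
    rw [sum_add_distrib]
    have := sum_act_sq_le hsymm hop x
    linarith
  have h4 := mul_le_mul_of_nonneg_left h3 (show 0 ≤ 8 / A ^ 2 by positivity)
  have h5 := mul_le_mul_of_nonneg_right hε (Nat.cast_nonneg n : (0:ℝ) ≤ n)
  have e4 : 8 / A ^ 2 * ((R + 9) * n) = 8 * (R + 9) / A ^ 2 * n := by ring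
  linarith

lemma localVar_le_of_large {J : Fin n → Fin n → ℝ} {h : Fin n → ℝ} {i : Fin n} {x : Fin n → Bool}
    (hu : 15 ≤ |localField J h i x|) : localVar J h i x ≤ 1 / 10000 := by
  set u := localField J h i x
  have h1 := one_add_sq_half_le_cosh u
  have h2 : 100 ≤ cosh u := by
    have := pow_le_pow_left₀ (by norm_num) hu 2
    rw [sq_abs] at this
    linarith
  have h3 : localVar J h i x = 1 / cosh u ^ 2 := by
    have hc : cosh u ^ 2 ≠ 0 := pow_ne_zero 2 (cosh_pos u).ne'
    rw [localVar, localMean, tanh_eq_sinh_div_cosh, eq_div_iff hc, div_pow, sub_mul, one_mul,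
      div_mul_cancel₀ _ hc, cosh_sq]
    ring
  rw [h3]
  exact one_div_le_one_div_of_le (by norm_num)
    (le_trans (by norm_num) (pow_le_pow_left₀ (by norm_num) h2 2))

/-- The curvature inequality at each configuration with few small local fields. -/
lemma grad_le {ε : ℝ} {J : Fin n → Fin n → ℝ} (hJ : LargeFieldCoupling ε J) (h : Fin n → ℝ)
    (x : Fin n → Bool)
    (hS : ((univ.filter fun i => |localField J h i x| < 15).card : ℝ) ≤ ε * n)
    (f : (Fin n → Bool) → ℝ) :
    (∑ i, ∑ j, J i j * gradWeight J h i j f x)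
        + 2 * (1001 / 1000) * ∑ i, secWeight J h i f x
      ≤ 16 / 25 * ∑ i, dirWeight J h i f x := by
  obtain ⟨hsymm, -, -, -, hop, hblock⟩ := hJ
  set S := univ.filter fun i => |localField J h i x| < 15
  set w : Fin n → ℝ := fun i => localVar J h i x * deriv2 i f x
  set u : Fin n → ℝ := fun i => if i ∈ S then w i else 0
  set v : Fin n → ℝ := fun i => if i ∈ S then 0 else w i
  have hw : ∀ i, w i = u i + v i := fun i => by simp only [u, v]; split_ifs <;> ring
  have hv01 : ∀ i, 0 ≤ localVar J h i x ∧ localVar J h i x ≤ 1 := fun i =>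
    ⟨sub_nonneg.2 (tanh_sq_lt_one _).le, sub_le_self _ (sq_nonneg _)⟩
  have hd : ∀ i, 0 ≤ dirWeight J h i f x := fun i => mul_nonneg (hv01 i).1 (sq_nonneg _)
  have hu2 : ∑ i, u i ^ 2 ≤ ∑ i, dirWeight J h i f x := sum_le_sum fun i _ => by
    simp only [u]
    split_ifs
    · rw [dirWeight, show w i ^ 2 = localVar J h i x * (localVar J h i x * deriv2 i f x ^ 2) by
        simp only [w]; ring]
      exact mul_le_of_le_one_left (hd i) (hv01 i).2
    · simpa using hd i
  have hv2 : ∑ i, v i ^ 2 ≤ 1 / 10000 * ∑ i, dirWeight J h i f x := by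
    rw [mul_sum]
    refine sum_le_sum fun i _ => ?_
    simp only [v]
    split_ifs with hi
    · have := hd i
      rw [zero_pow two_ne_zero]
      linarith
    · rw [dirWeight, show w i ^ 2 = localVar J h i x * (localVar J h i x * deriv2 i f x ^ 2) by
        simp only [w]; ring]
      exact mul_le_mul_of_nonneg_right
        (localVar_le_of_large (not_lt.1 fun h => hi (mem_filter.2 ⟨mem_univ _, h⟩))) (hd i)
  have q1 := hblock S hS u fun i hi => if_neg hi
  have q2 := (abs_le.1 (hop v)).2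
  have q3 := two_mul_bilin_le hsymm hop (fun i => 1 / 10 * u i) fun i => 10 * v i
  have e3 : ∀ i j, J i j * (1 / 10 * u i) * (10 * v j) = J i j * u i * v j := fun i j => by ring
  simp only [e3, mul_pow, ← mul_sum] at q3
  have e4 : ∑ i, ∑ j, J i j * gradWeight J h i j f x
      = ∑ i, ∑ j, J i j * u i * u j + 2 * ∑ i, ∑ j, J i j * u i * v j
        + ∑ i, ∑ j, J i j * v i * v j := by
    have e : ∑ i, ∑ j, J i j * v i * u j = ∑ i, ∑ j, J i j * u i * v j := by
      rw [sum_comm]
      exact sum_congr rfl fun i _ => sum_congr rfl fun j _ => by rw [hsymm j i]; ring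
    have e5 : ∀ i j, J i j * gradWeight J h i j f x = J i j * (u i + v i) * (u j + v j) :=
      fun i j => by rw [← hw, ← hw, gradWeight]; simp only [w]; ring
    simp only [e5, mul_add, add_mul, sum_add_distrib, e]
    ring
  have hsec : ∑ i, secWeight J h i f x ≤ 1 / 4 * ∑ i, dirWeight J h i f x := by
    rw [mul_sum]
    refine sum_le_sum fun i _ => ?_
    rw [secWeight, dirWeight,
      show localMean J h i x ^ 2 = 1 - localVar J h i x by rw [localVar]; ring]
    set p := localVar J h i x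
    have h1 : p * (1 - p) ≤ 1 / 4 := by linarith [sq_nonneg (p - 1 / 2)]
    have := mul_le_mul_of_nonneg_right h1 (mul_nonneg (hv01 i).1 (sq_nonneg (deriv2 i f x)))
    linarith
  have := sum_nonneg fun i (_ : i ∈ univ) => hd i
  rw [e4]
  linarith

/-- Spectral gap near every field that is large off a small set. -/
theorem gap_largeField {A ε ε' R : ℝ} {J : Fin n → Fin n → ℝ} (hJ : LargeFieldCoupling ε' J)
    (hA : 30 ≤ A) (hε : ε + 8 * (R + 9) / A ^ 2 ≤ ε') {y h : Fin n → ℝ}
    (hy : ((univ.filter fun i => |y i| < A).card : ℝ) ≤ ε * n)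
    (hh : ∑ i, (h i - y i) ^ 2 ≤ R * n) (f : (Fin n → Bool) → ℝ) :
    1 / 4 * variance (gibbs J h) f ≤ dirichlet (gibbs J h) f := by
  obtain ⟨hsymm, hdiag, hsmall, hrow, hop, hblock⟩ := id hJ
  refine gap_of_bochner hsymm hdiag (by norm_num) (fun g => le_trans ?_
    (bochner_of_local (δ := 1 / 10000) (Λ := 16 / 25) hsymm hdiag (by norm_num) (by norm_num)
      hsmall hrow g fun x =>
      grad_le hJ h x (card_localField_small hsymm hop hA hε hy hh x) g)) f
  refine mul_le_mul_of_nonneg_right (by norm_num) ?_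
  rw [dirichlet_eq hsymm hdiag]
  exact sum_nonneg fun i _ => sum_nonneg fun x _ => mul_nonneg (gibbs_pos x).le (sq_nonneg _)

lemma cov_largeField {A ε ε' R : ℝ} {J : Fin n → Fin n → ℝ} (hJ : LargeFieldCoupling ε' J)
    (hA : 30 ≤ A) (hε : ε + 8 * (R + 9) / A ^ 2 ≤ ε') {y h : Fin n → ℝ}
    (hy : ((univ.filter fun i => |y i| < A).card : ℝ) ≤ ε * n)
    (hh : ∑ i, (h i - y i) ^ 2 ≤ R * n) (a : Fin n → ℝ) :
    variance (gibbs J h) (linObs a) ≤ 4 * ∑ i, a i ^ 2 := by
  have := (gap_largeField hJ hA hε hy hh (linObs a)).trans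
    (dirichlet_linObs_le hJ.1 hJ.2.1 h a)
  linarith

end Vale.Agent.P150.Beta1
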